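import Vale.Agent.P011UM5.Tern
import Vale.Agent.P011U.IF3

/-!
Indefinite quadratic forms in five variables over number fields are isotropic.
-/

set_option autoImplicit false
set_option linter.all false

open NumberField IsDedekindDomain QuadraticMap

namespace Vale.Agent.P011UM5

open Vale.Agent.P011.Arith

section alg

variable {E V : Type} [Field E] [AddCommGroup V] [Module E V] (q : QuadraticForm E V)

theorem q_comb (s t : E) (x y : V) :
    q (s • x + t • y) = s ^ 2 * q x + t ^ 2 * q y + s * t * polar q x y := by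
  rw [QuadraticMap.map_add q, QuadraticMap.map_smul, QuadraticMap.map_smul, polar_smul_left,
    polar_smul_right]
  simp only [smul_eq_mul]
  ring

/-- A nonzero vector orthogonal to a short family. -/
theorem exists_orth [FiniteDimensional E V] {n : ℕ} (u : Fin n → V) (h : n < Module.finrank E V) :
    ∃ z, z ≠ 0 ∧ ∀ i, polar q (u i) z = 0 := by
  let f : V →ₗ[E] (Fin n → E) := LinearMap.pi fun i => q.polarBilin (u i)
  have hk : LinearMap.ker f ≠ ⊥ := LinearMap.ker_ne_bot_of_finrank_lt (by simpa using h)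
  obtain ⟨z, hz, hz0⟩ := Submodule.exists_mem_ne_zero_of_ne_bot hk
  exact ⟨z, hz0, fun i => congrFun (LinearMap.mem_ker.mp hz) i⟩

end alg

variable {E V : Type} [Field E] [NumberField E] [AddCommGroup V] [Module E V]

theorem near_pos (a b c x₀ : ℝ) (h : 0 < x₀ ^ 2 * a + (1 - x₀) ^ 2 * b + x₀ * (1 - x₀) * c) :
    ∃ ε : ℝ, 0 < ε ∧ ∀ x, |x - x₀| < ε → 0 < x ^ 2 * a + (1 - x) ^ 2 * b + x * (1 - x) * c := by
  have hc : Continuous fun x : ℝ => x ^ 2 * a + (1 - x) ^ 2 * b + x * (1 - x) * c := by fun_prop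
  obtain ⟨ε, hε, hb⟩ := Metric.isOpen_iff.mp (isOpen_lt continuous_const hc) x₀ h
  exact ⟨ε, hε, fun x hx => hb (by rwa [Metric.mem_ball, Real.dist_eq])⟩

/-- Weak approximation for the signs of a family of quadratic forms. -/
theorem exists_signs (q : QuadraticForm E V) (σ : (E →+* ℝ) → ℝ) (R : Finset (E →+* ℝ))
    (h : ∀ φ ∈ R, ∃ x, 0 < σ φ * φ (q x)) : ∃ y, ∀ φ ∈ R, 0 < σ φ * φ (q y) := by
  classical
  induction R using Finset.induction_on with
  | empty => exact ⟨0, fun φ hφ => absurd hφ (Finset.notMem_empty _)⟩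
  | insert ψ R hψ ih =>
    obtain ⟨y, hy⟩ := ih fun φ hφ => h φ (Finset.mem_insert_of_mem hφ)
    obtain ⟨x, hx⟩ := h ψ (Finset.mem_insert_self _ _)
    have key : ∀ φ : E →+* ℝ, ∃ ε : ℝ, 0 < ε ∧ ∀ s : E, φ ∈ insert ψ R →
        |φ (s - if φ = ψ then 0 else 1)| < ε → 0 < σ φ * φ (q (s • y + (1 - s) • x)) := by
      intro φ
      by_cases hφ : φ ∈ insert ψ R
      · obtain ⟨ε, hε, hb⟩ := near_pos (σ φ * φ (q y)) (σ φ * φ (q x)) (σ φ * φ (polar q y x))
          (if φ = ψ then 0 else 1) (by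
            split_ifs with h1
            · subst h1
              simpa using hx
            · simpa using hy φ ((Finset.mem_insert.mp hφ).resolve_left h1))
        refine ⟨ε, hε, fun s _ hs => ?_⟩
        have h2 := hb (φ s) (by
          rw [map_sub] at hs
          split_ifs at hs ⊢ <;> simpa using hs)
        rw [q_comb]
        simp only [map_add, map_mul, map_pow, map_sub, map_one]
        linarith
      · exact ⟨1, one_pos, fun _ h => absurd h hφ⟩
    choose ε hε hb using key
    obtain ⟨s, hs⟩ := approx (F := E) (Set.range Sum.inr) (Set.finite_range _)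
      (Sum.elim (fun _ => 0) fun φ => if φ = ψ then 0 else 1) (Sum.elim (fun _ => 1) ε) (by
        rintro (v | φ)
        · exact one_pos
        · exact hε φ)
    exact ⟨_, fun φ hφ => hb φ s hφ (hs (Sum.inr φ) ⟨φ, rfl⟩)⟩

theorem exists_pair [FiniteDimensional E V] (q : QuadraticForm E V) (hV : 2 ≤ Module.finrank E V)
    (h : ∀ φ : E →+* ℝ, (∃ v, 0 < φ (q v)) ∧ ∃ v, φ (q v) < 0) :
    ∃ x y, x ≠ 0 ∧ y ≠ 0 ∧ polar q x y = 0 ∧ ∀ φ : E →+* ℝ, 0 < φ (q x) ∧ φ (q y) < 0 := by
  classical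
  by_cases hR : Nonempty (E →+* ℝ)
  · obtain ⟨φ₀⟩ := hR
    obtain ⟨x, hx⟩ := exists_signs q (fun _ => 1) Finset.univ fun φ _ => by
      simpa using (h φ).1
    obtain ⟨y, hy⟩ := exists_signs q (fun _ => -1) Finset.univ fun φ _ => by
      simpa using (h φ).2
    have hx' : ∀ φ : E →+* ℝ, 0 < φ (q x) := fun φ => by simpa using hx φ (Finset.mem_univ _)
    have hq : q x ≠ 0 := fun h0 => by simpa [h0] using hx' φ₀
    have hy' : ∀ φ : E →+* ℝ, φ (q ((1 : E) • y + (-(polar q x y / (2 * q x))) • x)) < 0 := by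
      intro φ
      have h1 : φ (q y) < 0 := by simpa using hy φ (Finset.mem_univ _)
      have h2 : q ((1 : E) • y + (-(polar q x y / (2 * q x))) • x) =
          q y - (polar q x y / (2 * q x)) ^ 2 * q x := by
        rw [q_comb, polar_comm _ y x]
        field_simp
        ring
      rw [h2, map_sub, map_mul, map_pow]
      nlinarith [mul_nonneg (sq_nonneg (φ (polar q x y / (2 * q x)))) (hx' φ).le]
    refine ⟨x, _, fun h0 => hq (by rw [h0, map_zero]), fun h0 => ?_, ?_, fun φ => ⟨hx' φ, hy' φ⟩⟩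
    · have := hy' φ₀
      rw [h0, map_zero, map_zero] at this
      exact lt_irrefl _ this
    · rw [polar_add_right, polar_smul_right, polar_smul_right, polar_self]
      simp only [smul_eq_mul, nsmul_eq_mul]
      field_simp
      ring
  · obtain ⟨x, hx, -⟩ := exists_orth q (n := 0) ![] (by omega)
    obtain ⟨y, hy, hxy⟩ := exists_orth q ![x] (by omega)
    exact ⟨x, y, hx, hy, hxy 0, fun φ => absurd ⟨φ⟩ hR⟩

theorem hm5 : P011U.HM5 := by
  intro E _ _ V _ _ _ q hV h
  by_contra hcon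
  push Not at hcon
  obtain ⟨x1, x2, h1, h2, h12, hs⟩ := exists_pair q (by omega) h
  obtain ⟨x3, h3, o3⟩ := exists_orth q ![x1, x2] (by omega)
  obtain ⟨x4, h4, o4⟩ := exists_orth q ![x1, x2, x3] (by omega)
  obtain ⟨x5, h5, o5⟩ := exists_orth q ![x1, x2, x3, x4] (by omega)
  have h13 : polar q x1 x3 = 0 := o3 0
  have h23 : polar q x2 x3 = 0 := o3 1
  have h14 : polar q x1 x4 = 0 := o4 0
  have h24 : polar q x2 x4 = 0 := o4 1
  have h34 : polar q x3 x4 = 0 := o4 2
  have h15 : polar q x1 x5 = 0 := o5 0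
  have h25 : polar q x2 x5 = 0 := o5 1
  have h35 : polar q x3 x5 = 0 := o5 2
  have h45 : polar q x4 x5 = 0 := o5 3
  obtain ⟨t1, t2, t3, t4, t5, hne, ht⟩ := diag5 (Units.mk0 _ (hcon _ h1)) (Units.mk0 _ (hcon _ h2))
    (Units.mk0 _ (hcon _ h3)) (Units.mk0 _ (hcon _ h4)) (Units.mk0 _ (hcon _ h5)) hs
  simp only [Units.val_mk0] at ht
  refine hcon (t1 • x1 + t2 • x2 + t3 • x3 + t4 • x4 + t5 • x5) (fun h0 => ?_) ?_
  · have e4 := congrArg (fun v => polar q v x4) h0
    have e5 := congrArg (fun v => polar q v x5) h0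
    simp only [polar_add_left, polar_smul_left, polar_zero_left, h14, h24, h34, h15, h25, h35, h45,
      polar_comm _ x5 x4, polar_self, smul_eq_mul, nsmul_eq_mul, mul_zero, add_zero, zero_add,
      mul_eq_zero, hcon _ h4, hcon _ h5, or_false, Nat.cast_ofNat, OfNat.ofNat_ne_zero] at e4 e5
    exact hne.elim (fun h => h e4) fun h => h e5
  · simp only [QuadraticMap.map_add q, QuadraticMap.map_smul, polar_add_left, polar_smul_left,
      polar_smul_right, h12, h13, h23, h14, h24, h34, h15, h25, h35, h45, smul_eq_mul]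
    linear_combination ht

end Vale.Agent.P011UM5
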