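import Vale.Agent.P011.Arith.Schilling

/-!
Values of the pure quaternion norm form and diagonal forms in five variables over number fields.
-/

set_option autoImplicit false
set_option linter.all false

open NumberField IsDedekindDomain

namespace Vale.Agent.P011UM5

open Vale.Agent.P011.Arith Vale.Agent.P011.Arith.Sch

variable {F : Type} [Field F] [NumberField F]

/-- The primes which are bad for the pair `a`, `b`, together with one more prime. -/
def Bad (v0 : HeightOneSpectrum (𝓞 F)) (a b : Fˣ) : Set (HeightOneSpectrum (𝓞 F)) :=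
  {v0} ∪ {v | v.valuation F 2 ≠ 1} ∪ {v | v.valuation F (a : F) ≠ 1} ∪
    {v | v.valuation F (b : F) ≠ 1}

theorem Bad.fin (v0 : HeightOneSpectrum (𝓞 F)) (a b : Fˣ) : (Bad v0 a b).Finite :=
  (((Set.finite_singleton v0).union
    (finite_valuation_ne_one 2 two_ne_zero)).union (finite_valuation_ne_one _ a.ne_zero)).union
      (finite_valuation_ne_one _ b.ne_zero)

theorem tern_of_sq (a b e r : F) (ha : a ≠ 0) (hb : b ≠ 0) (s : F) (h : b = r ^ 2 - a * s ^ 2) :
    ∃ x y z : F, e = a * x ^ 2 + b * y ^ 2 - a * b * z ^ 2 := by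
  by_cases hr : r = 0
  · subst hr
    have hs : s ≠ 0 := by
      rintro rfl
      exact hb (by rw [h]; ring)
    refine ⟨(e / a + 1) / 2, (e / a - 1) / (2 * s), 0, ?_⟩
    rw [h]
    field_simp
    ring
  · -- an isotropic vector gives all values
    have hab : a * b ≠ 0 := mul_ne_zero ha hb
    obtain ⟨t, ht⟩ : ∃ t : F, t = (e - a) / (2 * a * b) := ⟨_, rfl⟩
    refine ⟨1 + t * b, t * (a * s), t * r, ?_⟩
    have h1 : a * (1 + t * b) ^ 2 + b * (t * (a * s)) ^ 2 - a * b * (t * r) ^ 2 =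
        a + 2 * a * b * t + a * b * t ^ 2 * (b - (r ^ 2 - a * s ^ 2)) := by ring
    rw [h1, ← h, ht]
    field_simp
    ring

/-- An element which is a local nonsquare at the bad primes is the square of a pure
quaternion, if the algebra is split at the real places. -/
theorem tern (v0 : HeightOneSpectrum (𝓞 F)) (a b e : Fˣ)
    (h : ∀ φ : F →+* ℝ, φ a < 0 → 0 < φ b) (heS : ∀ v ∈ Bad v0 a b, e ∉ LS (v.valuation F)) :
    ∃ x y z : F, (e : F) = a * x ^ 2 + b * y ^ 2 - a * b * z ^ 2 := by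
  have hensq : ¬ IsSquare (e : F) := fun hs =>
    heS v0 (Or.inl (Or.inl (Or.inl rfl))) (Sq_le_LS _ (mem_Sq_iff.mpr hs))
  obtain ⟨E, _, _, _, hE, θ, hθ⟩ := exists_quad e hensq
  have hθ' : ∀ x : F, algebraMap F E x ≠ θ := by
    rintro r rfl
    apply hensq
    refine ⟨r, (algebraMap F E).injective ?_⟩
    rw [← hθ, map_mul, pow_two]
  set ι : Fˣ →* Eˣ := Units.map (algebraMap F E : F →* E) with hι
  have hιv : ∀ u : Fˣ, ((ι u : Eˣ) : E) = algebraMap F E u := fun _ => rfl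
  have key : ι b ∈ NF (ι a) := by
    refine hasse_norm (ι a) (ι b) ?_
    rintro (w | ψ)
    · change ι b ∈ NF (ι a) ⊔ LS (w.valuation E)
      obtain ⟨v, hv⟩ := Sch.exists_below (F := F) w
      by_cases hvS : v ∈ Bad v0 a b
      · rcases local_split v a b e (heS v hvS) with h1 | ⟨y, n, l, hn, hl, h1⟩
        · exact sup_map hv h1
        · have h2 : ι (b * n * l) ∈ NF (ι a) := by
            refine ⟨θ, algebraMap F E y, ?_⟩
            rw [hιv, hθ, hιv]
            have h3 : ((b * n * l : Fˣ) : F) = (e : F) - a * y ^ 2 := by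
              rw [h1]; push_cast; ring
            rw [h3]
            simp
          have h3 : ι b = ι (b * n * l) * (ι n)⁻¹ * (ι l)⁻¹ := by
            rw [map_mul, map_mul, mul_right_comm (ι b * ι n) (ι l) (ι n)⁻¹,
              mul_inv_cancel_right, mul_inv_cancel_right]
          rw [h3]
          exact mul_mem (mul_mem (Subgroup.mem_sup_left h2)
            (inv_mem (Subgroup.mem_sup_left (NF_map hn))))
            (inv_mem (Subgroup.mem_sup_right (LS_map hv hl)))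
      · simp only [Bad, Set.mem_union, Set.mem_ofPred_eq, not_or, not_not] at hvS
        refine unit_norm w ?_ _ _ ?_ ?_
        · have := valuation_one_map hv hvS.1.1.2
          rwa [map_ofNat] at this
        · exact valuation_one_map hv hvS.1.2
        · exact valuation_one_map hv hvS.2
    · change ι b ∈ NF (ι a) ⊔ LSR ψ
      set φ : F →+* ℝ := ψ.comp (algebraMap F E) with hφ
      have hval : ∀ u : Fˣ, ψ (ι u) = φ u := fun _ => rfl
      by_cases hb : 0 < φ b
      · exact Subgroup.mem_sup_right (by rw [mem_LSR, hval]; exact hb)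
      · have hb' : φ b < 0 := lt_of_le_of_ne (not_lt.mp hb) ((map_ne_zero φ).mpr b.ne_zero)
        have ha' : 0 < φ a := by
          by_contra ha
          exact hb (h φ (lt_of_le_of_ne (not_lt.mp ha) ((map_ne_zero φ).mpr a.ne_zero)))
        have h1 : ι b / (-ι a) ∈ LSR ψ := by
          rw [mem_LSR, Units.val_div_eq_div_val, map_div₀, Units.val_neg, map_neg, hval, hval]
          exact div_pos_of_neg_of_neg hb' (by linarith)
        have h2 : ι b = -ι a * (ι b / (-ι a)) := by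
          rw [mul_div_cancel]
        rw [h2]
        exact Subgroup.mul_mem_sup (Sch.neg_mem_NF _) h1
  obtain ⟨X, Y, hXY⟩ := key
  obtain ⟨x1, x2, y1, y2, h1, h2⟩ := descend (a := (a : F)) (b := (b : F)) hθ hE hθ' hXY
  have ha := a.ne_zero
  have hb := b.ne_zero
  by_cases hn : x2 ^ 2 - a * y2 ^ 2 = 0
  · exact tern_of_sq _ _ _ x1 ha hb y1 (by rw [h1, hn]; ring)
  · refine ⟨(x1 * y2 - x2 * y1) / (x2 ^ 2 - a * y2 ^ 2), x2 / (x2 ^ 2 - a * y2 ^ 2),
      y2 / (x2 ^ 2 - a * y2 ^ 2), ?_⟩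
    have key : (e : F) * (x2 ^ 2 - a * y2 ^ 2) ^ 2 =
        a * (x1 * y2 - x2 * y1) ^ 2 + b * (x2 ^ 2 - a * y2 ^ 2) := by
      rw [h1]
      linear_combination (-(x1 * x2 - a * y1 * y2)) * h2
    have hee : (e : F) = (a * (x1 * y2 - x2 * y1) ^ 2 + b * (x2 ^ 2 - a * y2 ^ 2)) /
        (x2 ^ 2 - a * y2 ^ 2) ^ 2 := by
      rw [eq_div_iff (pow_ne_zero 2 hn), key]
    rw [hee]
    field_simp
    ring

/-- A binary form represents a local nonsquare. -/
theorem bin_loc (v : HeightOneSpectrum (𝓞 F)) (c d : Fˣ) :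
    ∃ (x y : F) (e : Fˣ), (e : F) = c * x ^ 2 + d * y ^ 2 ∧ e ∉ LS (v.valuation F) := by
  by_cases hc : c ∈ LS (v.valuation F)
  · obtain ⟨x, e, he, hn⟩ := exists_sub_notMem v (-(d / c))
    refine ⟨x, 1, c * e, ?_, fun h => hn ((Subgroup.mul_mem_cancel_left _ hc).mp h)⟩
    have := c.ne_zero
    rw [Units.val_mul, he, Units.val_neg, Units.val_div_eq_div_val]
    field_simp
    ring
  · exact ⟨1, 0, c, by ring, hc⟩

/-- A binary form represents an element which is a nonsquare at finitely many primes. -/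
theorem bin_glob (S : Set (HeightOneSpectrum (𝓞 F))) (hS : S.Finite) (c d : Fˣ) :
    ∃ x y : F, ∀ v ∈ S, ∃ e : Fˣ, (e : F) = c * x ^ 2 + d * y ^ 2 ∧ e ∉ LS (v.valuation F) := by
  choose x₀ y₀ e₀ he₀ hn₀ using fun v : HeightOneSpectrum (𝓞 F) => bin_loc v c d
  have hp : ∀ (v : HeightOneSpectrum (𝓞 F)) (u : Fˣ),
      0 < plAbv (Sum.inl v : Pl F) (4 * (e₀ v : F) / u) := fun v u =>
    (plAbv (Sum.inl v)).pos (div_ne_zero (mul_ne_zero (by norm_num) (e₀ v).ne_zero) u.ne_zero)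
  choose δ₀ hδ₀ hδ₁ using fun v : HeightOneSpectrum (𝓞 F) =>
    plAbv_near (Sum.inl v) (x₀ v) (hp v c)
  choose δ₂ hδ₂ hδ₃ using fun v : HeightOneSpectrum (𝓞 F) =>
    plAbv_near (Sum.inl v) (y₀ v) (hp v d)
  have hT : (Sum.inl '' S : Set (Pl F)).Finite := hS.image _
  obtain ⟨x, hx⟩ := approx _ hT (Sum.elim x₀ fun _ => 0) (Sum.elim δ₀ fun _ => 1) (by
    rintro (v | φ)
    · exact hδ₀ v
    · exact one_pos)
  obtain ⟨y, hy⟩ := approx _ hT (Sum.elim y₀ fun _ => 0) (Sum.elim δ₂ fun _ => 1) (by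
    rintro (v | φ)
    · exact hδ₂ v
    · exact one_pos)
  refine ⟨x, y, fun v hv => ?_⟩
  have h1 := hδ₁ v x (hx (Sum.inl v) ⟨v, hv, rfl⟩)
  have h2 := hδ₃ v y (hy (Sum.inl v) ⟨v, hv, rfl⟩)
  rw [plAbv_lt, map_div₀, lt_div_iff₀ (zero_lt_iff.mpr
    ((Valuation.ne_zero_iff _).mpr (Units.ne_zero _))), ← map_mul] at h1 h2
  have h3 : v.valuation F (c * x ^ 2 + d * y ^ 2 - e₀ v) < v.valuation F (4 * (e₀ v : F)) := by
    have e1 : (c : F) * x ^ 2 + d * y ^ 2 - e₀ v =
        (x ^ 2 - x₀ v ^ 2) * c + (y ^ 2 - y₀ v ^ 2) * d := by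
      rw [he₀]; ring
    rw [e1]
    exact Valuation.map_add_lt _ h1 h2
  rw [map_mul] at h3
  have h4 : v.valuation F (c * x ^ 2 + d * y ^ 2 - e₀ v) < v.valuation F (e₀ v : F) :=
    lt_of_lt_of_le h3 (by
      calc (v.valuation F) 4 * (v.valuation F) (e₀ v : F) ≤ 1 * (v.valuation F) (e₀ v : F) :=
          mul_le_mul_left (val_four_le _) _
        _ = _ := one_mul _)
  have h5 : v.valuation F (c * x ^ 2 + d * y ^ 2) = v.valuation F (e₀ v : F) := by
    have : (c : F) * x ^ 2 + d * y ^ 2 = e₀ v + (c * x ^ 2 + d * y ^ 2 - e₀ v) := by ring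
    rw [this]
    exact Valuation.map_add_eq_of_lt_left _ h4
  have h6 : (c : F) * x ^ 2 + d * y ^ 2 ≠ 0 := by
    intro h0
    rw [h0, map_zero] at h5
    exact (Valuation.ne_zero_iff _).mpr (e₀ v).ne_zero h5.symm
  refine ⟨Units.mk0 _ h6, rfl, fun hmem => hn₀ v (LS_of_near hmem ?_)⟩
  rw [Units.val_mk0, h5, Valuation.map_sub_swap]
  exact h3

/-- Diagonal forms in five variables with a totally positive and a totally negative entry. -/
theorem diag5 (a1 a2 a3 a4 a5 : Fˣ) (h : ∀ φ : F →+* ℝ, 0 < φ a1 ∧ φ a2 < 0) :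
    ∃ x1 x2 x3 x4 x5 : F, (x4 ≠ 0 ∨ x5 ≠ 0) ∧
      (a1 : F) * x1 ^ 2 + a2 * x2 ^ 2 + a3 * x3 ^ 2 + a4 * x4 ^ 2 + a5 * x5 ^ 2 = 0 := by
  obtain ⟨v0⟩ := nonempty_prime (F := F)
  obtain ⟨x, y, hxy⟩ := bin_glob _ (Bad.fin v0 (-(a2 * a3)) (-(a1 * a3)))
    (a1 * a2 * a3 * a4) (a1 * a2 * a3 * a5)
  obtain ⟨e, he, -⟩ := hxy v0 (Or.inl (Or.inl (Or.inl rfl)))
  obtain ⟨X, Y, Z, hE⟩ := tern v0 (-(a2 * a3)) (-(a1 * a3)) e (fun φ hφ => by
      obtain ⟨h1, h2⟩ := h φ
      rw [Units.val_neg, Units.val_mul, map_neg, map_mul] at hφ ⊢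
      have h3 : φ a3 < 0 := by nlinarith
      nlinarith) (fun v hv => by
      obtain ⟨e', he', hn⟩ := hxy v hv
      rwa [show e = e' from Units.ext (he.trans he'.symm)])
  have h1 := a1.ne_zero
  have h2 := a2.ne_zero
  have h3 := a3.ne_zero
  refine ⟨X / a1, Y / a2, Z, x, y, ?_, ?_⟩
  · by_contra hc
    push Not at hc
    apply e.ne_zero
    rw [he, hc.1, hc.2]
    ring
  · rw [he] at hE
    push_cast at hE
    field_simp
    apply mul_left_cancel₀ h3
    linear_combination hE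

end Vale.Agent.P011UM5
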